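import Mathlib

/-!
Fields with given equations: existence, the case of torsion of order four.
-/

namespace Vale.Agent.P297.H925.Ex

open Polynomial

/-- A field generated by elements of a bigger field. -/
theorem adjoin_top {Ω : Type} [Field Ω] [Algebra ℂ Ω] (S : Set Ω)
    (T : Set (IntermediateField.adjoin ℂ S)) (h : Subtype.val '' T = S) :
    IntermediateField.adjoin ℂ T = ⊤ := by
  apply IntermediateField.lift_injective
  rw [IntermediateField.lift_adjoin, IntermediateField.lift_top]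
  congr 1

/-- the algebraic closure of the field of rational functions in two variables -/
abbrev Om : Type := AlgebraicClosure (FractionRing (MvPolynomial (Fin 2) ℂ))

/-- the variables -/
noncomputable def vv (i : Fin 2) : Om :=
  algebraMap (FractionRing (MvPolynomial (Fin 2) ℂ)) Om
    (algebraMap (MvPolynomial (Fin 2) ℂ) (FractionRing (MvPolynomial (Fin 2) ℂ))
      (MvPolynomial.X i))

/-- the inclusion of the polynomials -/
noncomputable def inc : MvPolynomial (Fin 2) ℂ →ₐ[ℂ] Om :=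
  (IsScalarTower.toAlgHom ℂ (FractionRing (MvPolynomial (Fin 2) ℂ)) Om).comp
    (IsScalarTower.toAlgHom ℂ (MvPolynomial (Fin 2) ℂ)
      (FractionRing (MvPolynomial (Fin 2) ℂ)))

theorem inc_injective : Function.Injective inc := by
  unfold inc
  rw [AlgHom.coe_comp]
  exact (algebraMap (FractionRing (MvPolynomial (Fin 2) ℂ)) Om).injective.comp
    (IsFractionRing.injective (MvPolynomial (Fin 2) ℂ) (FractionRing (MvPolynomial (Fin 2) ℂ)))

theorem inc_X (i : Fin 2) : inc (MvPolynomial.X i) = vv i := rfl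

theorem vv_ind : AlgebraicIndependent ℂ vv := by
  have h : AlgebraicIndependent ℂ (fun i : Fin 2 => inc (MvPolynomial.X i)) :=
    (MvPolynomial.algebraicIndependent_X (Fin 2) ℂ).map' inc_injective
  exact h

theorem four (m : Fin 11 → ℂ) (h : m 2 ≠ 0) :
    ∃ (K : Type) (_ : Field K) (_ : Algebra ℂ K) (u w p q : K),
      AlgebraicIndependent ℂ ![u, w] ∧ IntermediateField.adjoin ℂ {u, w, p, q} = ⊤ ∧
      (p * q + (algebraMap ℂ K (m 0) * u / w + algebraMap ℂ K (m 1) / u +
          algebraMap ℂ K (m 2) * u * w + algebraMap ℂ K (m 3) * u + algebraMap ℂ K (m 4)) = 0 ∧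
        w * p ^ 2 + q ^ 2 + algebraMap ℂ K (m 9) * w * p + algebraMap ℂ K (m 10) * q +
          (algebraMap ℂ K (m 5) + algebraMap ℂ K (m 6) * w +
            (algebraMap ℂ K (m 7) + algebraMap ℂ K (m 8) * w) * u) = 0) := by
  classical
  set u : Om := vv 0 with hu
  set w : Om := vv 1 with hw
  have hu0 : u ≠ 0 := vv_ind.ne_zero 0
  have hw0 : w ≠ 0 := vv_ind.ne_zero 1
  set G : Om := algebraMap ℂ Om (m 0) * u / w + algebraMap ℂ Om (m 1) / u +
    algebraMap ℂ Om (m 2) * u * w + algebraMap ℂ Om (m 3) * u + algebraMap ℂ Om (m 4) with hG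
  set H : Om := algebraMap ℂ Om (m 5) + algebraMap ℂ Om (m 6) * w +
    (algebraMap ℂ Om (m 7) + algebraMap ℂ Om (m 8) * w) * u with hH
  have hG0 : G ≠ 0 := by
    intro h0
    have h1 : inc (MvPolynomial.C (m 0) * MvPolynomial.X 0 ^ 2 +
        MvPolynomial.C (m 1) * MvPolynomial.X 1 +
        MvPolynomial.C (m 2) * MvPolynomial.X 0 ^ 2 * MvPolynomial.X 1 ^ 2 +
        MvPolynomial.C (m 3) * MvPolynomial.X 0 ^ 2 * MvPolynomial.X 1 +
        MvPolynomial.C (m 4) * MvPolynomial.X 0 * MvPolynomial.X 1) = 0 := by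
      have h2 : G * (u * w) = 0 := by rw [h0, zero_mul]
      rw [← h2, hG]
      simp only [map_add, map_mul, map_pow, inc_X, ← hu, ← hw, MvPolynomial.algHom_C]
      field_simp
    have h3 := (map_eq_zero_iff inc inc_injective).mp h1
    have ev : ∀ a b : ℂ, m 0 * a ^ 2 + m 1 * b + m 2 * a ^ 2 * b ^ 2 + m 3 * a ^ 2 * b +
        m 4 * a * b = 0 := by
      intro a b
      have h4 := congrArg (MvPolynomial.eval ![a, b]) h3
      simpa using h4
    apply h
    have e1 := ev 1 1
    have e2 := ev (-1) 1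
    have e3 := ev 1 (-1)
    have e4 := ev (-1) (-1)
    have e5 := ev 1 0
    have e6 := ev (-1) 0
    linear_combination (1 / 4) * e1 + (1 / 4) * e2 + (1 / 4) * e3 + (1 / 4) * e4 -
      (1 / 2) * e5 - (1 / 2) * e6
  set P : Om[X] := C w * X ^ 4 + C (algebraMap ℂ Om (m 9) * w) * X ^ 3 + C H * X ^ 2 +
    C (-(algebraMap ℂ Om (m 10) * G)) * X + C (G ^ 2) with hP
  have hdeg : P.natDegree = 4 := by
    rw [hP]
    compute_degree!
  obtain ⟨p, hp⟩ : ∃ p : Om, P.IsRoot p := by
    apply IsAlgClosed.exists_root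
    intro h0
    rw [natDegree_eq_of_degree_eq_some h0] at hdeg
    exact absurd hdeg (by norm_num)
  have hp' : w * p ^ 4 + algebraMap ℂ Om (m 9) * w * p ^ 3 + H * p ^ 2 -
      algebraMap ℂ Om (m 10) * G * p + G ^ 2 = 0 := by
    have h1 : P.eval p = 0 := hp
    rw [hP] at h1
    simp only [eval_add, eval_mul, eval_C, eval_pow, eval_X] at h1
    linear_combination h1
  have hp0 : p ≠ 0 := by
    intro h0
    rw [h0] at hp'
    apply hG0
    have : G ^ 2 = 0 := by linear_combination hp'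
    exact pow_eq_zero_iff (two_ne_zero) |>.mp this
  set q : Om := -G / p with hq
  have e1 : p * q + G = 0 := by
    rw [hq]
    field_simp
    ring
  have e2 : w * p ^ 2 + q ^ 2 + algebraMap ℂ Om (m 9) * w * p + algebraMap ℂ Om (m 10) * q +
      H = 0 := by
    rw [hq]
    field_simp
    linear_combination hp'
  let L : IntermediateField ℂ Om := IntermediateField.adjoin ℂ {u, w, p, q}
  have mu : u ∈ L := IntermediateField.subset_adjoin ℂ _ (by simp)
  have mw : w ∈ L := IntermediateField.subset_adjoin ℂ _ (by simp)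
  have mp : p ∈ L := IntermediateField.subset_adjoin ℂ _ (by simp)
  have mq : q ∈ L := IntermediateField.subset_adjoin ℂ _ (by simp)
  refine ⟨L, inferInstance, inferInstance, ⟨u, mu⟩, ⟨w, mw⟩, ⟨p, mp⟩, ⟨q, mq⟩, ?_, ?_, ?_, ?_⟩
  · have h1 : AlgebraicIndependent ℂ (fun i => L.val ((![⟨u, mu⟩, ⟨w, mw⟩] : Fin 2 → L) i)) := by
      convert vv_ind with i
      fin_cases i <;> rfl
    exact AlgebraicIndependent.of_comp L.val h1
  · apply adjoin_top
    ext a
    simp only [Set.mem_image, Set.mem_insert_iff, Set.mem_singleton_iff]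
    constructor
    · rintro ⟨b, hb | hb | hb | hb, rfl⟩ <;> subst hb <;> simp
    · rintro (rfl | rfl | rfl | rfl)
      · exact ⟨⟨_, mu⟩, Or.inl rfl, rfl⟩
      · exact ⟨⟨_, mw⟩, Or.inr (Or.inl rfl), rfl⟩
      · exact ⟨⟨_, mp⟩, Or.inr (Or.inr (Or.inl rfl)), rfl⟩
      · exact ⟨⟨_, mq⟩, Or.inr (Or.inr (Or.inr rfl)), rfl⟩
  · apply Subtype.ext
    exact e1
  · apply Subtype.ext
    exact e2

end Vale.Agent.P297.H925.Ex
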